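import Vale.Agent.N018.RangeY

/-! # P018, N018: the predicted asymptotic as one statement. -/

namespace Vale.Agent.N018

open Polynomial Filter Topology Asymptotics Vale.Agent.P018 Vale.Agent.P018.H867R
  Vale.Agent.P018.R2.H803

/-- the predicted asymptotic for the `k`-power-free values of `f`: the product `c_{f,k}` converges,
it is positive, `S_{f,k}(X) = c_{f,k} X + o(X)`, and the error term saves a power of `X`. -/
def Predicted (f : ℤ[X]) (k : ℕ) : Prop :=
  Multipliable (fun p : Nat.Primes => 1 - (rho f ((p : ℕ) ^ k) : ℝ) / ((p : ℕ) : ℝ) ^ k) ∧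
  0 < density f k ∧
  (fun X : ℕ => (countPF f k X : ℝ) - density f k * X) =o[atTop] (fun X : ℕ => (X : ℝ)) ∧
  ∃ δ C : ℝ, 0 < δ ∧ ∀ X : ℕ, 1 ≤ X →
    |(countPF f k X : ℝ) - density f k * X| ≤ C * (X : ℝ) ^ (1 - δ)

theorem predicted_of_good (f : ℤ[X]) (k : ℕ) (hk : 2 ≤ k) (hf : GoodY f k)
    (hloc : ∀ p : ℕ, p.Prime → rho f (p ^ k) < p ^ k) : Predicted f k := by
  obtain ⟨h1, h2, h3⟩ := main_oneR tailY f k hk hf hloc
  exact ⟨h1, h2, isLittleO_of_pow h3, h3⟩

theorem predicted_of_irr (f : ℤ[X]) (k : ℕ) (hk : 2 ≤ k)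
    (hirr : Irreducible (f.map (Int.castRingHom ℚ)))
    (hloc : ∀ p : ℕ, p.Prime → rho f (p ^ k) < p ^ k) (hr : InRangeY f.natDegree k) :
    Predicted f k :=
  predicted_of_good f k hk (goodR_of_irr f k hk hirr hr) hloc

end Vale.Agent.N018
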