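import Vale.Agent.N018.RangeZ
import Vale.Agent.N018.H.AllG

/-! # P018, N018: the range with all `k ≥ d / 2` and all `k ≥ d / 3 + 1`. -/

namespace Vale.Agent.N018

open Polynomial Filter Topology Vale.Agent.P018 Vale.Agent.P018.H867 Vale.Agent.P018.H867P
  Vale.Agent.P018.H867R Vale.Agent.P018.R2.H803 Vale.Agent.P018.R2.H26

/-- the pairs (degree, exponent) that are treated. -/
def InRangeW (d k : ℕ) : Prop :=
  d ≤ 2 * k ∨ d + 3 ≤ 3 * k ∨ 2 * d + 12 ≤ 7 * k ∨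
    (d : ℝ) / 4 + Real.log d ^ 2 / 16 + Real.log d / 2 + 1 / 2 ≤ k ∨
    (∃ e ∈ topDeg, d ≤ e.1 ∧ k = e.2) ∨
    (128 ≤ d ∧ (d : ℝ) / 4 + Real.log d ^ 2 / 16 + Real.log d / 2 ≤ k)

/-- `f ≠ 0`, and whenever `g ^ e` divides `f` over `ℚ`, `g` irreducible, `e ≥ 1`, then `e < k` and
`(deg g, ⌈k / e⌉)` is in the range; multiple factors are allowed. -/
def GoodW (f : ℤ[X]) (k : ℕ) : Prop :=
  f ≠ 0 ∧ ∀ (g : ℚ[X]) (e : ℕ), Irreducible g → 1 ≤ e → g ^ e ∣ f.map (Int.castRingHom ℚ) →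
    e < k ∧ InRangeW g.natDegree ⌈(k : ℚ) / e⌉₊

/-- irreducible polynomials. -/
theorem tailW : TailR InRangeW := by
  intro f hirr k hk hr
  rcases hr with h | h | h
  · exact tailZ f hirr k hk (Or.inl h)
  · by_cases h1 : f.natDegree = 9 ∧ k = 4
    · rw [h1.2]
      exact H.tail94 f hirr h1.1
    · by_cases h2 : f.natDegree = 12 ∧ k = 5
      · rw [h2.2]
        exact H.tail125 f hirr h2.1
      · refine tailZ f hirr k hk ?_
        rcases le_or_gt f.natDegree (2 * k) with h3 | h3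
        · exact Or.inl h3
        · exact Or.inr (Or.inl (by omega))
  · exact tailZ f hirr k hk (Or.inr h)

theorem predicted_of_goodW (f : ℤ[X]) (k : ℕ) (hk : 2 ≤ k) (hf : GoodW f k)
    (hloc : ∀ p : ℕ, p.Prime → rho f (p ^ k) < p ^ k) : Predicted f k := by
  obtain ⟨h1, h2, h3⟩ := main_oneR tailW f k hk hf hloc
  exact ⟨h1, h2, isLittleO_of_pow h3, h3⟩

theorem predicted_of_irrW (f : ℤ[X]) (k : ℕ) (hk : 2 ≤ k)
    (hirr : Irreducible (f.map (Int.castRingHom ℚ)))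
    (hloc : ∀ p : ℕ, p.Prime → rho f (p ^ k) < p ^ k) (hr : InRangeW f.natDegree k) :
    Predicted f k :=
  predicted_of_goodW f k hk (goodR_of_irr f k hk hirr hr) hloc

end Vale.Agent.N018
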