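import Vale.Agent.N018.Tab
import Vale.Agent.P018.R2.H803.More16
import Vale.Agent.P018.R2.H26.PairsFin

/-! # P018, N018: the range. -/

namespace Vale.Agent.N018

open Polynomial Filter Topology Vale.Agent.P018 Vale.Agent.P018.H867 Vale.Agent.P018.H867P
  Vale.Agent.P018.H867R Vale.Agent.P018.R2.H803 Vale.Agent.P018.R2.H26

/-- pairs `(D, k)`: all degrees up to `D` are treated, at the exponent `k`. -/
def topDeg : List (ℕ × ℕ) :=
  [(26, 9), (33, 11), (37, 12), (40, 13), (44, 14), (48, 15), (52, 16), (55, 17), (59, 18),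
   (63, 19), (67, 20), (71, 21), (74, 22), (78, 23), (82, 24), (86, 25), (90, 26), (94, 27),
   (97, 28), (101, 29), (105, 30), (109, 31), (113, 32), (117, 33), (121, 34), (125, 35)]

/-- the pairs (degree, exponent) that are treated. -/
def InRangeY (d k : ℕ) : Prop :=
  d ≤ 4 ∨ d < 2 * k ∨ 2 * d + 12 ≤ 7 * k ∨
    (d : ℝ) / 4 + Real.log d ^ 2 / 16 + Real.log d / 2 + 1 / 2 ≤ k ∨
    (∃ e ∈ topDeg, d ≤ e.1 ∧ k = e.2) ∨
    (128 ≤ d ∧ (d : ℝ) / 4 + Real.log d ^ 2 / 16 + Real.log d / 2 ≤ k)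

/-- `f ≠ 0`, and whenever `g ^ e` divides `f` over `ℚ`, `g` irreducible, `e ≥ 1`, then `e < k` and
`(deg g, ⌈k / e⌉)` is in the range; multiple factors are allowed. -/
def GoodY (f : ℤ[X]) (k : ℕ) : Prop :=
  f ≠ 0 ∧ ∀ (g : ℚ[X]) (e : ℕ), Irreducible g → 1 ≤ e → g ^ e ∣ f.map (Int.castRingHom ℚ) →
    e < k ∧ InRangeY g.natDegree ⌈(k : ℚ) / e⌉₊

theorem inRangeY_of_X (d k : ℕ) (h : InRangeX d k) : InRangeY d k := by
  rcases h with h | h | h | h
  · exact Or.inl h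
  · exact Or.inr (Or.inl h)
  · exact Or.inr (Or.inr (Or.inl h))
  · exact Or.inr (Or.inr (Or.inr (Or.inl h)))

theorem maxDeg_le : ∀ e ∈ maxDeg, ∃ e' ∈ topDeg, e.1 ≤ e'.1 ∧ e.2 = e'.2 := by
  decide

theorem inRangeY_of_maxDeg (e : ℕ × ℕ) (he : e ∈ maxDeg) (d : ℕ) (hd : d ≤ e.1) :
    InRangeY d e.2 := by
  obtain ⟨e', h1, h2, h3⟩ := maxDeg_le e he
  exact Or.inr (Or.inr (Or.inr (Or.inr (Or.inl ⟨e', h1, hd.trans h2, h3⟩))))

theorem inRangeY_sub_two (d : ℕ) : InRangeY d (d - 2) := by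
  rcases le_or_gt d 4 with h | h
  · exact Or.inl h
  · exact Or.inr (Or.inl (by omega))

theorem topDeg_cases : ∀ e ∈ topDeg, e ∈ maxDeg ∨ e ∈ tabPairs := by
  decide

/-- the tail, when all exponents are admissible. -/
theorem tail_of_adm' (f : ℤ[X]) (hirr : Irreducible (f.map (Int.castRingHom ℚ))) (k : ℕ)
    (hk : 2 ≤ k)
    (hadm : k ≤ f.natDegree → ∀ a : ℝ, 1 ≤ a → a ≤ (f.natDegree : ℝ) / k →
      K2.Adm2 f.natDegree k a) : TailPow f k := by
  rcases lt_or_ge f.natDegree (2 * k) with h | h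
  · exact tailX f hirr k hk (Or.inr (Or.inl h))
  · exact tail_of_adm f hirr k hk (by omega) (by omega) (hadm (by omega))

/-- irreducible polynomials. -/
theorem tailY : TailR InRangeY := by
  intro f hirr k hk hr
  rcases hr with h | h | h | h | ⟨e, he, h1, rfl⟩ | ⟨h1, h2⟩
  · exact tailX f hirr k hk (Or.inl h)
  · exact tailX f hirr k hk (Or.inr (Or.inl h))
  · exact tailX f hirr k hk (Or.inr (Or.inr (Or.inl h)))
  · exact tailX f hirr k hk (Or.inr (Or.inr (Or.inr h)))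
  · rcases topDeg_cases e he with h | h
    · exact tail_maxDeg e h f hirr h1
    · exact tail_of_adm' f hirr e.2 hk fun hkd a ha ha2 =>
        adm_pairs csU esU csU_ok esU_ok _ wU_ok e h f.natDegree hkd h1 a ha ha2
  · exact tail_of_adm' f hirr k hk fun hkd a ha ha2 =>
      adm_big csU esU csU_ok esU_ok _ wU_ok f.natDegree k h1 hkd h2 a ha ha2

end Vale.Agent.N018
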