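import Vale.Agent.N018.Pred
import Vale.Agent.N018.H.All

/-! # P018, N018: the range with all `k ≥ d / 2`. -/

namespace Vale.Agent.N018

open Polynomial Filter Topology Vale.Agent.P018 Vale.Agent.P018.H867 Vale.Agent.P018.H867P
  Vale.Agent.P018.H867R Vale.Agent.P018.R2.H803 Vale.Agent.P018.R2.H26

/-- the pairs (degree, exponent) that are treated. -/
def InRangeZ (d k : ℕ) : Prop :=
  d ≤ 2 * k ∨ 2 * d + 12 ≤ 7 * k ∨
    (d : ℝ) / 4 + Real.log d ^ 2 / 16 + Real.log d / 2 + 1 / 2 ≤ k ∨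
    (∃ e ∈ topDeg, d ≤ e.1 ∧ k = e.2) ∨
    (128 ≤ d ∧ (d : ℝ) / 4 + Real.log d ^ 2 / 16 + Real.log d / 2 ≤ k)

/-- `f ≠ 0`, and whenever `g ^ e` divides `f` over `ℚ`, `g` irreducible, `e ≥ 1`, then `e < k` and
`(deg g, ⌈k / e⌉)` is in the range; multiple factors are allowed. -/
def GoodZ (f : ℤ[X]) (k : ℕ) : Prop :=
  f ≠ 0 ∧ ∀ (g : ℚ[X]) (e : ℕ), Irreducible g → 1 ≤ e → g ^ e ∣ f.map (Int.castRingHom ℚ) →
    e < k ∧ InRangeZ g.natDegree ⌈(k : ℚ) / e⌉₊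

/-- irreducible polynomials. -/
theorem tailZ : TailR InRangeZ := by
  intro f hirr k hk hr
  rcases hr with h | h
  · by_cases h1 : f.natDegree = 6 ∧ k = 3
    · rw [h1.2]
      exact H.tail63 f hirr h1.1
    · refine tailY f hirr k hk ?_
      rcases lt_or_ge f.natDegree (2 * k) with h2 | h2
      · exact Or.inr (Or.inl h2)
      · rcases le_or_gt f.natDegree 4 with h3 | h3
        · exact Or.inl h3
        · exact Or.inr (Or.inr (Or.inl (by omega)))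
  · exact tailY f hirr k hk (Or.inr (Or.inr h))

theorem predicted_of_goodZ (f : ℤ[X]) (k : ℕ) (hk : 2 ≤ k) (hf : GoodZ f k)
    (hloc : ∀ p : ℕ, p.Prime → rho f (p ^ k) < p ^ k) : Predicted f k := by
  obtain ⟨h1, h2, h3⟩ := main_oneR tailZ f k hk hf hloc
  exact ⟨h1, h2, isLittleO_of_pow h3, h3⟩

theorem predicted_of_irrZ (f : ℤ[X]) (k : ℕ) (hk : 2 ≤ k)
    (hirr : Irreducible (f.map (Int.castRingHom ℚ)))
    (hloc : ∀ p : ℕ, p.Prime → rho f (p ^ k) < p ^ k) (hr : InRangeZ f.natDegree k) :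
    Predicted f k :=
  predicted_of_goodZ f k hk (goodR_of_irr f k hk hirr hr) hloc

end Vale.Agent.N018
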