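import Vale.Agent.P018.R2.H677.MuSmall
import Vale.Agent.P018.R2.H803.Adm16

set_option linter.all false

/-! # P018, N018: one table of steps serves many pairs `(d, k)` and all large degrees. -/

namespace Vale.Agent.N018

open Finset Vale.Agent.P018.K Vale.Agent.P018.K2 Vale.Agent.P018.K3 Vale.Agent.P018.R2.H677
  Vale.Agent.P018.H867R Vale.Agent.P018.R2.H803

/-- the pairs (largest degree, exponent) which come from the table -/
def tabPairs : List (ℕ × ℕ) :=
  [(78, 23), (82, 24), (86, 25), (90, 26), (94, 27), (97, 28), (101, 29), (105, 30), (109, 31),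
   (113, 32), (117, 33), (121, 34), (125, 35)]

/-- a row, cut at the degree `D` -/
def rowT (D : ℕ) (row : ℕ × ℕ × List (ℕ × ℕ × ℕ)) : ℕ × ℕ × List (ℕ × ℕ × ℕ) :=
  (row.1, row.2.1, row.2.2.take (D - 2))

/-- the numerical conditions for the pair `(D, k)` -/
def chk (D k : ℕ) (row : ℕ × ℕ × List (ℕ × ℕ × ℕ)) : Bool :=
  decide (row.2.2.length + 2 ≤ D) &&
    decide (row.2.1 * (20000 + (row.2.2.map fun p => p.2.2).sum +
      (D - 2 - row.2.2.length) * ((row.2.2.map fun p => p.2.2).getLastD 10000)) < k * 100000000)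

/-- one row of the table -/
noncomputable def uRow (cs es : List (List ℕ)) (row : ℕ × ℕ × List (ℕ × ℕ × ℕ)) : Bool :=
  mSteps row.1 2 10000 cs es row.2.2 && decide (row.2.2.length = 126) &&
    decide (row.2.1 * (20000 + (row.2.2.map fun p => p.2.2).sum) ≤ 3580000000) &&
    tabPairs.all fun e => chk e.1 e.2 (rowT e.1 row)

/-- the table -/
noncomputable def uTab (cs es : List (List ℕ)) (tab : List (ℕ × ℕ × List (ℕ × ℕ × ℕ))) : Bool :=
  tab.all (uRow cs es) && mCover 10000 2500 tab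

theorem mSteps_take (K : ℕ) (l : List (ℕ × ℕ × ℕ)) : ∀ (n r B : ℕ) (cs es : List (List ℕ)),
    mSteps K r B cs es l = true → mSteps K r B cs es (l.take n) = true := by
  induction l with
  | nil => intro n r B cs es h; simpa using h
  | cons p l ih =>
    intro n r B cs es h
    cases n with
    | zero => simp [mSteps]
    | succ n =>
      cases cs with
      | nil => simp [mSteps] at h
      | cons c cs =>
        rw [List.take_succ_cons]
        rw [mSteps, Bool.and_eq_true] at h ⊢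
        exact ⟨h.1, ih n (r + 1) p.2.2 cs es.tail h.2⟩

theorem mCover_map (H D : ℕ) (tab : List (ℕ × ℕ × List (ℕ × ℕ × ℕ))) : ∀ K : ℕ,
    mCover H K (tab.map (rowT D)) = mCover H K tab := by
  induction tab with
  | nil => intro K; rfl
  | cons row tab ih =>
    intro K
    rw [List.map_cons, mCover, mCover, ih]
    rfl

theorem mTab_of_uTab (cs es : List (List ℕ)) (tab : List (ℕ × ℕ × List (ℕ × ℕ × ℕ)))
    (h : uTab cs es tab = true) (e : ℕ × ℕ) (he : e ∈ tabPairs) :
    mTab e.1 e.2 2500 10000 cs es (tab.map (rowT e.1)) = true := by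
  rw [uTab, Bool.and_eq_true, List.all_eq_true] at h
  cases tab with
  | nil => simp [mCover] at h
  | cons row tab =>
    rw [List.map_cons, mTab, Bool.and_eq_true, ← List.map_cons, mCover_map, List.all_eq_true]
    refine ⟨fun x hx => ?_, h.2⟩
    obtain ⟨y, hy, rfl⟩ := List.mem_map.1 hx
    have h1 := h.1 y hy
    rw [uRow, Bool.and_eq_true, Bool.and_eq_true, Bool.and_eq_true, List.all_eq_true] at h1
    have h2 := h1.2 e he
    rw [chk, Bool.and_eq_true] at h2
    rw [mRow, Bool.and_eq_true, Bool.and_eq_true]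
    exact ⟨⟨h2.1, mSteps_take _ _ _ _ _ _ _ h1.1.1.1⟩, h2.2⟩

theorem tabPairs_ok : ∀ e ∈ tabPairs, 1 ≤ e.1 ∧ 2500 * e.1 ≤ e.2 * 10000 ∧ 2 ≤ e.2 := by
  decide

/-- the pairs of the list. -/
theorem adm_pairs (cs es : List (List ℕ)) (hcs : csOK 2 cs) (hes : esOK 2 es)
    (tab : List (ℕ × ℕ × List (ℕ × ℕ × ℕ))) (h : uTab cs es tab = true) (e : ℕ × ℕ)
    (he : e ∈ tabPairs) (d : ℕ) (hkd : e.2 ≤ d) (hd : d ≤ e.1) (a : ℝ) (h0 : 1 ≤ a)
    (h1 : a ≤ (d : ℝ) / e.2) : Adm2 d e.2 a := by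
  obtain ⟨g1, g2, g3⟩ := tabPairs_ok e he
  exact adm2_of_mTab_small critMu e.1 e.2 2500 10000 g1 g2 le_rfl cs es hcs hes _
    (mTab_of_uTab cs es tab h e he) d (by omega) hkd hd a h0 h1

/-- the size of the range. -/
noncomputable def bnd0 (d : ℕ) : ℝ := (d : ℝ) / 4 + Real.log d ^ 2 / 16 + Real.log d / 2

/-- steps up to `r = 127`, then the criterion without weights. -/
theorem adm_of_gSteps_big (d k : ℕ) (hd : 128 ≤ d) (hkd : k ≤ d) (h : bnd0 d ≤ k) (a : ℝ)
    (ha : 1 ≤ a) (κ1 : ℚ) (hr2 : a / d * k ≤ (κ1 : ℝ)) (l : List (ℚ × ℚ)) (h2 : l.length = 126)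
    (h3 : gSteps (fun r p => 0 < p.2 ∧ (1 ≤ r → Crit d k r a (a / d * (p.2 : ℝ)))) 2 1 l)
    (h4 : κ1 * (2 + (l.map Prod.snd).sum) ≤ 358 / 10) : Adm2 d k a := by
  have hd' : (128 : ℝ) ≤ d := by exact_mod_cast hd
  have hd0 : (0 : ℝ) < d := by linarith only [hd']
  have hLd : 0 ≤ Real.log (d : ℝ) := Real.log_nonneg (by linarith only [hd'])
  have hkq : (d : ℝ) / 4 ≤ k := by
    unfold bnd0 at h
    linarith only [h, sq_nonneg (Real.log (d : ℝ)), hLd]
  have hk0 : (0 : ℝ) < k := by linarith only [hkq, hd']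
  have hk1 : 1 ≤ k := by exact_mod_cast (Nat.one_le_iff_ne_zero.2 (by rintro rfl; simp at hk0))
  have ha0 : 0 < a := by linarith only [ha]
  obtain ⟨w, hw⟩ : ∃ w : ℝ, w = a / d := ⟨_, rfl⟩
  have hw0 : 0 < w := by rw [hw]; positivity
  obtain ⟨κ, hκ⟩ : ∃ κ : ℝ, κ = w * k := ⟨_, rfl⟩
  rw [← hw, ← hκ] at hr2
  have hκ4 : 1 / 4 ≤ κ := by
    rw [hκ, hw, div_mul_eq_mul_div, le_div_iff₀ hd0]
    linarith only [mul_nonneg (sub_nonneg.2 ha) (le_of_lt (sub_pos.2 hd0)),
      mul_nonneg (sub_nonneg.2 hkq) (le_of_lt (sub_pos.2 ha0))]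
  have hκ0 : 0 < κ := by linarith only [hκ4]
  obtain ⟨β, hβ⟩ : ∃ β : ℕ → ℚ, β = tb 1 l := ⟨_, rfl⟩
  have hanti : ∀ i, β (i + 1) ≤ β i := by rw [hβ]; exact gtb_anti _ l 2 1 h3
  have hpos : ∀ i, 0 < β i := by
    rw [hβ]; exact gtb_pos _ (fun r p h => h.1) l 2 1 one_pos h3
  have hβ0 : β 0 = 1 := by rw [hβ, tb_zero]
  obtain ⟨δ, hδ⟩ : ∃ δ : ℝ, δ = 1 / (10000 * (d : ℝ)) := ⟨_, rfl⟩
  have hδ0 : 0 < δ := by rw [hδ]; positivity
  obtain ⟨P, hP⟩ : ∃ P : ℕ → ℝ, P = fun r : ℕ => (4 * κ) ^ (-(1 / (r : ℝ))) := ⟨_, rfl⟩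
  have hP0 : ∀ r, 0 < P r := by
    intro r
    rw [hP]
    exact Real.rpow_pos_of_pos (by linarith only [hκ0]) _
  have hPpow : ∀ r : ℕ, 1 ≤ r → P r ^ r = (4 * κ)⁻¹ := by
    intro r hr
    have hr0 : (r : ℝ) ≠ 0 := by exact_mod_cast (show r ≠ 0 by omega)
    rw [hP]
    simp only
    rw [← Real.rpow_natCast, ← Real.rpow_mul (by linarith only [hκ0]), neg_mul,
      one_div_mul_cancel hr0, Real.rpow_neg_one]
  obtain ⟨t, ht⟩ : ∃ t : ℕ → ℝ, t = fun r =>
      if r < 128 then w * (β (r - 1) : ℝ) else (1 + δ) * (u r * P r) / k := ⟨_, rfl⟩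
  have htpos : ∀ r, 0 < t r := by
    intro r
    rw [ht]
    simp only
    split
    · have : (0 : ℝ) < β (r - 1) := by exact_mod_cast hpos _
      positivity
    · have := u_pos r
      have := hP0 r
      positivity
  have ht0 : t 0 = w := by
    rw [ht]
    simp [hβ0]
  have hle : ∀ r, rmin w t r ≤ t r := by
    intro r
    cases r with
    | zero => rw [ht0, rmin]
    | succ r => exact min_le_right _ _
  refine ⟨rmin w t, by rw [rmin, hw], fun r => min_le_left _ _,
    rmin_pos w t hw0 htpos _, ?_, ?_⟩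
  · intro r hr1 hr2' hlt
    obtain ⟨s, rfl⟩ : ∃ s, r = s + 1 := ⟨r - 1, by omega⟩
    rw [Nat.add_sub_cancel] at hlt
    have hEq : rmin w t (s + 1) = t (s + 1) := by
      rw [rmin]
      refine min_eq_right ?_
      by_contra hcon
      push Not at hcon
      rw [rmin, min_eq_left hcon.le] at hlt
      exact lt_irrefl _ hlt
    rw [hEq] at hlt ⊢
    have hlt2 : t (s + 1) < t s := hlt.trans_le (hle s)
    rcases lt_or_ge (s + 1) 128 with hs | hs
    · have e1 : t (s + 1) = w * (β s : ℝ) := by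
        rw [ht]
        simp only
        rw [if_pos hs, Nat.add_sub_cancel]
      have e2 : t s = w * (β (s - 1) : ℝ) := by
        rw [ht]
        simp only
        rw [if_pos (by omega)]
      rw [e1, e2] at hlt2
      have hlt' : β s < β (s - 1) := by
        have := lt_of_mul_lt_mul_left hlt2 hw0.le
        exact_mod_cast this
      cases s with
      | zero => simp at hlt'
      | succ i =>
        rw [Nat.add_sub_cancel, hβ] at hlt'
        obtain ⟨p, hp1, hp2⟩ := gtb_step _ l 2 1 h3 i hlt'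
        have := hp1.2 (by omega)
        rw [show 2 + i = i + 1 + 1 by ring, hp2, ← hw, ← hβ] at this
        rw [e1]
        exact this
    · generalize s + 1 = r at hs hr1 hr2'
      have htr : t r = (1 + δ) * (u r * P r) / k := by
        rw [ht]
        simp only
        rw [if_neg (by omega)]
      refine crit_zero d k r (by omega) hk1 hr1 a (t r) ha0 (htpos r) ?_
      have hcb := cb_pos r
      have hcb' : (((2 * r).choose (r - 1) : ℕ) : ℝ) = cb r := rfl
      rw [← hw, htr, div_pow, mul_pow, mul_pow, u_pow r hr1, hPpow r hr1, hcb']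
      have h3 : 1 < (1 + δ) ^ r := one_lt_pow₀ (by linarith only [hδ0]) (by omega)
      have e1 : (1 + δ) ^ r * (4 / cb r * (4 * κ)⁻¹) / (k : ℝ) ^ r * w * (k : ℝ) ^ (r + 1) * cb r =
          (1 + δ) ^ r * ((w * k) / κ) := by
        rw [pow_succ (k : ℝ)]
        field_simp
      rw [e1, ← hκ, div_self hκ0.ne', mul_one]
      exact h3
  · have h1 : ∑ r ∈ range d, rmin w t r ≤ ∑ r ∈ range 128, t r + ∑ r ∈ Ico 128 d, t r := by
      rw [Finset.range_eq_Ico, Finset.range_eq_Ico,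
        Finset.sum_Ico_consecutive t (show 0 ≤ 128 by norm_num) hd]
      exact sum_le_sum fun r _ => hle r
    refine lt_of_le_of_lt h1 ?_
    have hs1 : ∑ i ∈ range (l.length + 1), (β i : ℝ) = 1 + ((l.map Prod.snd).sum : ℚ) := by
      rw [← Rat.cast_sum, hβ, tb_sum l 1]
      push_cast
      ring
    obtain ⟨S, hS⟩ : ∃ S : ℝ, S = (((l.map Prod.snd).sum : ℚ) : ℝ) := ⟨_, rfl⟩
    rw [h2, ← hS] at hs1
    have hs0 : 0 ≤ 1 + S := by
      rw [← hs1]
      exact Finset.sum_nonneg fun i _ => by exact_mod_cast (hpos i).le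
    have e1 : ∑ r ∈ range 128, t r = w * (2 + S) := by
      rw [show 128 = 126 + 1 + 1 by norm_num, sum_range_succ', ht0]
      have e2 : ∑ i ∈ range (126 + 1), t (i + 1) = ∑ i ∈ range (126 + 1), w * (β i : ℝ) := by
        refine sum_congr rfl fun i hi => ?_
        rw [mem_range] at hi
        rw [ht]
        simp only
        rw [if_pos (by omega), Nat.add_sub_cancel]
      rw [e2, ← mul_sum, hs1]
      ring
    have e3 : ∑ r ∈ Ico 128 d, t r = (1 + δ) * (∑ r ∈ Ico 128 d, u r * P r) / k := by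
      rw [mul_sum, sum_div]
      refine sum_congr rfl fun r hr => ?_
      rw [mem_Ico] at hr
      rw [ht]
      simp only
      rw [if_neg (by omega)]
    rw [e1, e3]
    have h5 : ∑ r ∈ Ico 128 d, u r * P r ≤ ∑ r ∈ Ico 128 d, u r := by
      rw [hP]
      exact tail_le d κ hκ4
    have h6 := sum_u' d hd
    have h7 := Phi_128
    have h8 : Phi d ≤ bnd0 d := by
      unfold Phi bnd0
      have : (0 : ℝ) ≤ 6 / d := by positivity
      linarith only [this]
    obtain ⟨T, hT⟩ : ∃ T : ℝ, T = ∑ r ∈ Ico 128 d, u r * P r := ⟨_, rfl⟩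
    rw [← hT] at h5 ⊢
    have h4' : (κ1 : ℝ) * (2 + S) ≤ 358 / 10 := by
      rw [hS]
      have e6 : ((κ1 * (2 + (l.map Prod.snd).sum) : ℚ) : ℝ) ≤ ((358 / 10 : ℚ) : ℝ) :=
        Rat.cast_le.2 h4
      push_cast at e6 ⊢
      exact e6
    have h9 : κ * (2 + S) ≤ 358 / 10 :=
      (mul_le_mul_of_nonneg_right hr2 (by linarith only [hs0])).trans h4'
    have hkd' : (k : ℝ) ≤ d := by exact_mod_cast hkd
    have h10 : T ≤ k - 35.85 := by
      norm_num only at h7 ⊢
      linarith only [h5, h6, h7, h8, h]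
    have h11 : δ * T ≤ 0.0001 := by
      have e2 : δ * T ≤ δ * d := mul_le_mul_of_nonneg_left (by linarith only [h10, hkd']) hδ0.le
      have e4 : δ * (d : ℝ) = 0.0001 := by
        rw [hδ]
        field_simp
        norm_num
      linarith only [e2, e4]
    have e5 : w * (2 + S) + (1 + δ) * T / k = (κ * (2 + S) + T + δ * T) / k := by
      rw [hκ]
      field_simp
      ring
    rw [e5, div_lt_one hk0]
    norm_num only at h9 h10 h11 ⊢
    linarith only [h9, h10, h11]

/-- all degrees from `128` on. -/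
theorem adm_big (cs es : List (List ℕ)) (hcs : csOK 2 cs) (hes : esOK 2 es)
    (tab : List (ℕ × ℕ × List (ℕ × ℕ × ℕ))) (h : uTab cs es tab = true) (d k : ℕ)
    (hd : 128 ≤ d) (hkd : k ≤ d) (hb : bnd0 d ≤ k) (a : ℝ) (h0 : 1 ≤ a)
    (h1 : a ≤ (d : ℝ) / k) : Adm2 d k a := by
  have hd' : (128 : ℝ) ≤ d := by exact_mod_cast hd
  have hd0 : (0 : ℝ) < d := by linarith only [hd']
  have hLd : 0 ≤ Real.log (d : ℝ) := Real.log_nonneg (by linarith only [hd'])
  have hkq : (d : ℝ) / 4 ≤ k := by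
    unfold bnd0 at hb
    linarith only [hb, sq_nonneg (Real.log (d : ℝ)), hLd]
  have hk0 : (0 : ℝ) < k := by linarith only [hkq, hd']
  have hk1 : 1 ≤ k := by exact_mod_cast (Nat.one_le_iff_ne_zero.2 (by rintro rfl; simp at hk0))
  have ha : 0 < a := by linarith only [h0]
  rw [uTab, Bool.and_eq_true, List.all_eq_true] at h
  have g0 : ((2500 : ℕ) : ℝ) / 10000 ≤ a / d * k := by
    rw [div_mul_eq_mul_div, le_div_iff₀ hd0]
    push_cast
    nlinarith only [h0, hkq, hk0]
  have g1 : a / d * k ≤ ((10000 : ℕ) : ℝ) / 10000 := by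
    rw [le_div_iff₀ hk0] at h1
    have e0 : ((10000 : ℕ) : ℝ) / 10000 = 1 := by norm_num
    rw [div_mul_eq_mul_div, e0, div_le_one hd0]
    exact h1
  have hne : tab ≠ [] := by
    rintro rfl
    simp [mCover] at h
  obtain ⟨row, hm, h6, h7⟩ := mCover_row 10000 (a / d * k) g1 tab 2500 h.2 (Or.inr ⟨g0, hne⟩)
  have h2 := h.1 row hm
  rw [uRow, Bool.and_eq_true, Bool.and_eq_true, Bool.and_eq_true, decide_eq_true_eq,
    decide_eq_true_eq] at h2
  obtain ⟨⟨⟨h3, h4⟩, h5⟩, -⟩ := h2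
  have hm' : ((row.2.2.map fun p => qp p.2).map Prod.snd) =
      (row.2.2.map fun p => ((p.2.2 : ℕ) : ℚ) / 10000) := by
    rw [List.map_map]
    rfl
  have hsum : ((row.2.2.map fun p => qp p.2).map Prod.snd).sum =
      ((row.2.2.map fun p => p.2.2).sum : ℕ) / (10000 : ℚ) := by
    rw [hm']
    generalize row.2.2 = l
    induction l with
    | nil => simp
    | cons p l ih =>
      rw [List.map_cons, List.sum_cons, ih, List.map_cons, List.sum_cons]
      push_cast
      ring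
  refine adm_of_gSteps_big d k hd hkd hb a h0 ((row.2.1 : ℚ) / 10000) (by push_cast; exact h7)
    (row.2.2.map fun p => qp p.2) (by rw [List.length_map, h4]) ?_ ?_
  · have := mSteps_sound critMu d k row.1 (by omega) hk1 a ha (by push_cast; exact h6) row.2.2 2
      10000 cs es (by norm_num) hcs hes h3
    have e : ((10000 : ℕ) : ℚ) / 10000 = 1 := by norm_num
    rw [e] at this
    exact this
  · rw [hsum]
    generalize (row.2.2.map fun p => p.2.2).sum = s at h5 ⊢
    have h8 : ((row.2.1 * (20000 + s) : ℕ) : ℚ) ≤ ((3580000000 : ℕ) : ℚ) := by exact_mod_cast h5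
    push_cast at h8
    linarith only [h8]

end Vale.Agent.N018
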